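import Vale.Agent.Lib.P102.Kappa

/-!
# P102: the structure of a counterexample (bridge)
-/

open MeasureTheory Filter Topology

namespace Vale.Agent.P102D

open Vale.Agent.P102

variable {Ω : Type*} [MeasurableSpace Ω] {μ : Measure Ω} [IsProbabilityMeasure μ] {T : Ω ≃ᵐ Ω}

omit [IsProbabilityMeasure μ] in
/-- mixing of order `k` along sequences of times -/
theorem mixing_iff (k : ℕ) : MixingOfOrder μ T k ↔
    ∀ A : Fin k → Set Ω, (∀ i, MeasurableSet (A i)) → ∀ t : ℕ → Fin k → ℤ,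
      (∀ i j, i < j → Tendsto (fun n => t n j - t n i) atTop atTop) →
      Tendsto (fun n => μ.real (⋂ i, ((T.toEquiv : Equiv.Perm Ω) ^ t n i) ⁻¹' A i)) atTop
        (𝓝 (∏ i, μ.real (A i))) := by
  constructor
  · intro h A hA t ht
    rw [Metric.tendsto_nhds]
    intro ε hε
    obtain ⟨N, hN⟩ := h A hA ε hε
    have h1 : ∀ᶠ n in atTop, ∀ i j, i < j → t n i + N ≤ t n j := by
      rw [eventually_all]
      intro i
      rw [eventually_all]
      intro j
      by_cases hij : i < j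
      · filter_upwards [(ht i j hij).eventually_ge_atTop (N : ℤ)] with n hn _
        linarith
      · exact Eventually.of_forall fun n h => absurd h hij
    filter_upwards [h1] with n hn
    rw [Real.dist_eq]
    exact hN (t n) hn
  · intro h A hA ε hε
    by_contra hcon
    push Not at hcon
    choose t ht1 ht2 using hcon
    have h1 := h A hA t (fun i j hij => by
      refine tendsto_atTop_mono (fun n => ?_) tendsto_natCast_atTop_atTop
      have := ht1 n i j hij
      linarith)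
    obtain ⟨n, hn⟩ := ((Metric.tendsto_nhds.1 h1) ε hε).exists
    rw [Real.dist_eq] at hn
    exact absurd hn (not_lt.2 (ht2 n))

/-- the structure theorem, in terms of weakly convergent sequences -/
theorem structure' (hT : MeasurePreserving T μ μ) (h2 : MixingOfOrder μ T 2)
    (hnot : ∃ k, 2 ≤ k ∧ ¬ MixingOfOrder μ T k) :
    ∃ M : Submodule ℝ (Lp ℝ 2 μ), IsClosed (M : Set (Lp ℝ 2 μ)) ∧ M ≠ ⊥ ∧
      (∀ f ∈ M, ∫ x, f x ∂μ = 0) ∧
      ∀ (S : ℕ → Ω ≃ᵐ Ω) (hS : ∀ n, MeasurePreserving (S n) μ μ),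
        (∀ n x, S n (T x) = T (S n x)) →
        (∀ n, ∀ f ∈ M, Lp.compMeasurePreserving (S n) (hS n) f ∈ M) ∧
        (∀ f ∈ M, ∀ g h : Lp ℝ 2 μ,
          (∀ φ : Lp ℝ 2 μ, Tendsto (fun n =>
            inner ℝ (Lp.compMeasurePreserving (S n) (hS n) f) φ) atTop (𝓝 (inner ℝ g φ))) →
          (∀ φ : Lp ℝ 2 μ, Tendsto (fun n =>
            inner ℝ (Lp.compMeasurePreserving (S n).symm ((hS n).symm (S n)) g) φ) atTop
              (𝓝 (inner ℝ h φ))) →
          g ∈ M ∧ h ∈ M ∧ ‖h‖ = ‖g‖ ∧ inner ℝ f h = ‖h‖ ^ 2) := by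
  obtain ⟨M, hc, hne, hmean, hinv, hM⟩ := structure_thm hT h2 hnot
  refine ⟨M, hc, hne, hmean, fun S hS hcomm => ⟨fun n f hf => hinv (S n) (hS n) (hcomm n) f hf,
    fun f hf g h hg hh => ?_⟩⟩
  have hle : (Filter.hyperfilter ℕ : Filter ℕ) ≤ atTop := Nat.hyperfilter_le_atTop
  obtain ⟨Q, hQ⟩ := exists_WL (Filter.hyperfilter ℕ) S hS
  have e1 : Q f = g := by
    refine ext_inner_right ℝ fun φ => ?_
    exact tendsto_nhds_unique (hQ f φ) ((hg φ).mono_left hle)
  have hQ' := hQ.adj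
  have e2 : ContinuousLinearMap.adjoint Q g = h := by
    refine ext_inner_right ℝ fun φ => ?_
    exact tendsto_nhds_unique (hQ' g φ) ((hh φ).mono_left hle)
  have hcomm' : ∀ n x, (S n).symm (T x) = T ((S n).symm x) := by
    intro n x
    rw [MeasurableEquiv.symm_apply_eq, hcomm]
    simp
  obtain ⟨m1, m2⟩ := hM _ inferInstance S hS Q hcomm hQ f hf
  rw [e1] at m1
  have m3 := (hM _ inferInstance _ _ _ hcomm' hQ' g m1).1
  rw [e2] at m3
  have n1 := norm_adj_eq m2
  rw [e1, e2] at n1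
  have n2 : ‖h‖ = ‖g‖ := (sq_eq_sq₀ (norm_nonneg _) (norm_nonneg _)).1 n1
  refine ⟨m1, m3, n2, ?_⟩
  have n3 := PP_inner_self Q f
  have e3 : PP Q f = h := by
    unfold PP
    rw [ContinuousLinearMap.comp_apply, e1, e2]
  rw [e3, e1] at n3
  rw [real_inner_comm, n3, n2]

end Vale.Agent.P102D
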